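import Vale.Agent.P273.H132.LgU
import Vale.Agent.P273.H803.AsyQ
import Vale.Agent.P273.H545.KapAlpha

/-!
# P273, crew ASY0 (T3a): bounds of the explicit one-forms on the cores

`CForm D A N Q lg`: at the marks of `Q` the one-form is `±` the derivative `UKD` of the core
potential (545), with a core primitive bounded by `A` with its derivative at the point.
`CForm.b1, b2, b4, b5, b6`: the fields of helper803's `AsyQ Q κ lg`.
-/

noncomputable section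

namespace Vale.Agent.P273.H680

open Set Filter H681 H95 H732 H562 H803 H545 H722 H132 H722.KapData
open scoped Topology ContDiff

section gen

variable {ι : Type} [Fintype ι] [Nonempty ι] [DecidableEq ι]
  {E : Type*} [NormedAddCommGroup E] [NormedSpace ℝ E]
  {D : KapData ι} {K0 : (ι → ℂ) →L[ℂ] ℂ} {K' : (ι → ℂ) × ℂ →L[ℝ] ((ι → ℂ) →L[ℂ] ℂ)}
  {ξ β : ι → ℝ} {B : E →L[ℝ] Pa ι} {x' : E →L[ℝ] ℂ} {p : Pa ι} {m Λ A : ℝ}

/-- the derivative of the slopes in the direction `α l`, sharp form -/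
theorem norm_xx_a_sharp (h : D.Big m p) (ξ β : ι → ℝ) (l : ι) :
    ‖fderiv ℝ (D.xx ξ β) p (ea l)‖ ≤ |β l| + nn ι * D.bb ξ β p l := by
  have hm := h.pos
  have hm0 : 0 < m := by linarith
  have hl := h.le l
  have hl0 : 0 < p.1 l := by linarith
  have hb0 := D.bb_nonneg ξ β p l
  have hn : (0 : ℝ) ≤ nn ι := nn_nonneg
  have habs : ∀ k, |D.hh ξ β p (ea l) k| ≤
      (if k = l then |β l / (2 * Real.pi)| else 0) + D.bb ξ β p l := by
    intro k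
    rw [hh_ea]
    refine (abs_sub _ _).trans (add_le_add ?_ (small_le h ξ β (norm_dep_ea p l) k))
    by_cases hk : k = l
    · simp [hk]
    · simp [hk]
  obtain ⟨-, s2, -, -⟩ := (deriv_isSol h ξ β (ea l)).single (l := l)
    (a := |β l / (2 * Real.pi)|) h.hM h.hm hm0 h.hK h.kap.le hb0 habs
  have hML : MM p l = p.1 l / 2 := rfl
  have hcard : (Fintype.card ι : ℝ) = nn ι := rfl
  rw [hML, hcard] at s2
  have ht : |β l / (2 * Real.pi)| ≤ |β l| := by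
    rw [abs_div, abs_of_pos (by positivity : (0 : ℝ) < 2 * Real.pi)]
    exact div_le_self (abs_nonneg _) (by linarith [Real.pi_gt_three])
  have e1 : 4 * (|β l / (2 * Real.pi)| / (p.1 l / 2)) ≤ |β l| := by
    have e0 : 4 * (|β l / (2 * Real.pi)| / (p.1 l / 2)) =
        8 * |β l / (2 * Real.pi)| / p.1 l := by
      field_simp
      ring
    rw [e0, div_le_iff₀ hl0]
    nlinarith [abs_nonneg (β l), abs_nonneg (β l / (2 * Real.pi))]
  have e2 : 8 * nn ι * D.bb ξ β p l / m ≤ nn ι * D.bb ξ β p l := by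
    rw [div_le_iff₀ hm0]
    nlinarith [mul_nonneg hn hb0]
  linarith

/-- **direction `α l`**, sharp form -/
theorem UK_a_sharp (h : D.Big m p) (hΛ : ∀ k, |p.2 k| ≤ Λ) (hA0 : ‖K0‖ ≤ A) (hA1 : ‖K'‖ ≤ A)
    (ξ β : ι → ℝ) {v : E} {l : ι} (hv : B v = ea l) (hx : x' v = 0) :
    |UKD D K0 K' ξ β p B x' v| ≤
      (1 + A) * (|β l| + (2 * nn ι * D.B0 Λ + D.A0 Λ) * sz ξ β / p.1 l) := by
  have hA : 0 ≤ A := (norm_nonneg K').trans hA1
  obtain ⟨hm, hZ, hβ, hc⟩ := nums h hΛ ξ β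
  have hl := h.le l
  have hl0 : (0 : ℝ) < p.1 l := by linarith
  have hm0 : 0 < m := by linarith
  obtain ⟨s1, -, -⟩ := core_a h ξ β l
  have hxx := norm_xx_a_sharp h ξ β l
  have hd := norm_dep_ea p l
  have he := exp_le_inv (by linarith : 8 ≤ p.1 l)
  have hb0 := D.bb_nonneg ξ β p l
  have hn : (0 : ℝ) ≤ nn ι := nn_nonneg
  have hs := UKD_sub_le (D := D) (K0 := K0) (K' := K') (ξ := ξ) (β := β) (B := B) (p := p)
    hA0 hA1 v hx
  rw [hv] at hs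
  have hB0 : 0 ≤ D.B0 Λ * sz ξ β := (facts h hΛ ξ β l).2.1
  have hbb : D.bb ξ β p l ≤ D.B0 Λ * sz ξ β / p.1 l := by
    refine (bb_le h hΛ l).trans ?_
    calc D.B0 Λ * sz ξ β * Real.exp (-(p.1 l)) ≤ D.B0 Λ * sz ξ β * (1 / p.1 l) :=
          mul_le_mul_of_nonneg_left he hB0
      _ = _ := by ring
  have e1 : 2 * m * |β l / (2 * Real.pi)| / p.1 l ≤ |β l| := by
    have h1 : |β l / (2 * Real.pi)| = |β l| / (2 * Real.pi) := by
      rw [abs_div, abs_of_pos (by positivity : (0 : ℝ) < 2 * Real.pi)]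
    have h2 : 2 * m * |β l / (2 * Real.pi)| / p.1 l = |β l| * (m / p.1 l) / Real.pi := by
      rw [h1]
      field_simp
    have h3 : m / p.1 l ≤ 1 := (div_le_one hl0).2 hl
    have h4 : |β l| * (m / p.1 l) ≤ |β l| * 1 :=
      mul_le_mul_of_nonneg_left h3 (abs_nonneg _)
    rw [h2]
    refine (div_le_self (by positivity) (by linarith [Real.pi_gt_three])).trans ?_
    linarith
  have e2 : ‖cc D ξ β p‖ * ‖dep p (ea l)‖ ≤ D.A0 Λ * sz ξ β / p.1 l := by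
    calc ‖cc D ξ β p‖ * ‖dep p (ea l)‖ ≤ D.A0 Λ * sz ξ β / 5 * (1 / p.1 l) :=
          mul_le_mul hc (hd.trans he) (norm_nonneg _) (by positivity)
      _ = (D.A0 Λ * sz ξ β / p.1 l) / 5 := by ring
      _ ≤ _ := div_le_self (by positivity) (by norm_num)
  have e3 : nn ι * D.bb ξ β p l ≤ nn ι * (D.B0 Λ * sz ξ β / p.1 l) :=
    mul_le_mul_of_nonneg_left hbb hn
  have e4 : 0 ≤ nn ι * (D.B0 Λ * sz ξ β / p.1 l) := by positivity
  have e5 : 0 ≤ D.A0 Λ * sz ξ β / p.1 l := by positivity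
  have h1 := abs_add_le (fderiv ℝ (D.CC ξ β) p (ea l))
    (UKD D K0 K' ξ β p B x' v - fderiv ℝ (D.CC ξ β) p (ea l))
  rw [add_sub_cancel] at h1
  have h2 : |UKD D K0 K' ξ β p B x' v - fderiv ℝ (D.CC ξ β) p (ea l)| ≤
      A * (D.A0 Λ * sz ξ β / p.1 l + (|β l| + nn ι * (D.B0 Λ * sz ξ β / p.1 l))) :=
    hs.trans (mul_le_mul_of_nonneg_left (add_le_add e2 (hxx.trans (by linarith))) hA)
  have h3 : |fderiv ℝ (D.CC ξ β) p (ea l)| ≤ |β l| + 2 * (nn ι * (D.B0 Λ * sz ξ β / p.1 l)) :=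
    s1.trans (by linarith)
  have h4 : (1 + A) * (|β l| + (2 * nn ι * D.B0 Λ + D.A0 Λ) * sz ξ β / p.1 l) =
      (|β l| + 2 * (nn ι * (D.B0 Λ * sz ξ β / p.1 l))) +
      A * (D.A0 Λ * sz ξ β / p.1 l + (|β l| + nn ι * (D.B0 Λ * sz ξ β / p.1 l))) +
      (D.A0 Λ * sz ξ β / p.1 l + A * (nn ι * (D.B0 Λ * sz ξ β / p.1 l))) := by
    ring
  have h5 : 0 ≤ A * (nn ι * (D.B0 Λ * sz ξ β / p.1 l)) := mul_nonneg hA e4
  rw [h4]
  linarith

omit [DecidableEq ι] in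
/-- only the mark moves, `β = 0` -/
theorem UK_x0 (h : D.Big m p) (hA1 : ‖K'‖ ≤ A) (ξ : ι → ℝ) {v : E} (hv : B v = 0) :
    |UKD D K0 K' ξ 0 p B x' v| ≤ 8 * A * wa ξ p * ‖x' v‖ := by
  have hA : 0 ≤ A := (norm_nonneg K').trans hA1
  refine (UC_bound_x hA1 ?_ ?_ ?_).trans ?_
  · rw [ContinuousLinearMap.comp_apply, hv, map_zero]
  · rw [ContinuousLinearMap.comp_apply, hv, map_zero]
  · funext k
    rw [ContinuousLinearMap.comp_apply, hv, map_zero]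
  · calc A * ‖cc D ξ 0 p‖ * ‖x' v‖ ≤ A * (8 * wa ξ p) * ‖x' v‖ :=
          mul_le_mul_of_nonneg_right (mul_le_mul_of_nonneg_left (cc_alpha h ξ) hA)
            (norm_nonneg _)
      _ = _ := by ring

/-- direction `α l`, `β = 0` -/
theorem UK_a0 (h : D.Big m p) (hA0 : ‖K0‖ ≤ A) (hA1 : ‖K'‖ ≤ A) (ξ : ι → ℝ) {v : E} {l : ι}
    (hv : B v = ea l) (hx : x' v = 0) :
    |UKD D K0 K' ξ 0 p B x' v| ≤ (A2 D + A * (8 + A2 D)) * wa ξ p := by
  have hA : 0 ≤ A := (norm_nonneg K').trans hA1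
  have hwa := wa_nonneg h ξ
  have hA2 := one_le_A2 D
  obtain ⟨a1, -, a3⟩ := alpha_a h ξ l
  have hc := cc_alpha h ξ
  have hd := norm_dep_ea p l
  have hl := h.le l
  have hm := h.pos
  have he : Real.exp (-(p.1 l)) ≤ 1 := Real.exp_le_one_iff.2 (by linarith)
  have hs := UKD_sub_le (D := D) (K0 := K0) (K' := K') (ξ := ξ) (β := 0) (B := B) (p := p)
    hA0 hA1 v hx
  rw [hv] at hs
  have b1 : A2 D * wa ξ p * Real.exp (-(p.1 l)) ≤ A2 D * wa ξ p :=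
    mul_le_of_le_one_right (by positivity) he
  have b2 : ‖cc D ξ 0 p‖ * ‖dep p (ea l)‖ ≤ 8 * wa ξ p := by
    calc ‖cc D ξ 0 p‖ * ‖dep p (ea l)‖ ≤ 8 * wa ξ p * 1 :=
          mul_le_mul hc (hd.trans he) (norm_nonneg _) (by positivity)
      _ = _ := mul_one _
  have h1 := abs_add_le (fderiv ℝ (D.CC ξ 0) p (ea l))
    (UKD D K0 K' ξ 0 p B x' v - fderiv ℝ (D.CC ξ 0) p (ea l))
  rw [add_sub_cancel] at h1
  have h2 : |UKD D K0 K' ξ 0 p B x' v - fderiv ℝ (D.CC ξ 0) p (ea l)| ≤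
      A * (8 * wa ξ p + A2 D * wa ξ p) :=
    hs.trans (mul_le_mul_of_nonneg_left (add_le_add b2 (a3.trans b1)) hA)
  have h3 : (A2 D + A * (8 + A2 D)) * wa ξ p =
      A2 D * wa ξ p + A * (8 * wa ξ p + A2 D * wa ξ p) := by ring
  rw [h3]
  exact h1.trans (add_le_add (a1.trans b1) h2)

/-- direction `y l`, `β = 0` -/
theorem UK_y0 (h : D.Big m p) (hA0 : ‖K0‖ ≤ A) (hA1 : ‖K'‖ ≤ A) (ξ : ι → ℝ) {v : E} {l : ι}
    (hv : B v = ey l) (hx : x' v = 0) :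
    |UKD D K0 K' ξ 0 p B x' v| ≤ (A2 D + A * (16 + 2 * A2 D)) * wa ξ p * (m / p.1 l) := by
  have hA : 0 ≤ A := (norm_nonneg K').trans hA1
  have hwa := wa_nonneg h ξ
  have hA2 := one_le_A2 D
  obtain ⟨a1, -, a3⟩ := alpha_y h ξ l
  have hc := cc_alpha h ξ
  have hd := norm_dep_ey p l
  have hl := h.le l
  have hm := h.pos
  have hl0 : (0 : ℝ) < p.1 l := by linarith
  have he := exp_le_inv (by linarith : 8 ≤ p.1 l)
  have hs := UKD_sub_le (D := D) (K0 := K0) (K' := K') (ξ := ξ) (β := 0) (B := B) (p := p)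
    hA0 hA1 v hx
  rw [hv] at hs
  have hinv : 1 / p.1 l ≤ m / p.1 l := div_le_div_of_nonneg_right (by linarith) hl0.le
  have b2 : ‖cc D ξ 0 p‖ * ‖dep p (ey l)‖ ≤ 8 * wa ξ p * (m / p.1 l) :=
    mul_le_mul hc (hd.trans (he.trans hinv)) (norm_nonneg _) (by positivity)
  have b3 : (2 * A2 D + 8) * wa ξ p / p.1 l ≤ (2 * A2 D + 8) * wa ξ p * (m / p.1 l) := by
    calc (2 * A2 D + 8) * wa ξ p / p.1 l = (2 * A2 D + 8) * wa ξ p * (1 / p.1 l) := by ring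
      _ ≤ _ := mul_le_mul_of_nonneg_left hinv (by positivity)
  have h1 := abs_add_le (fderiv ℝ (D.CC ξ 0) p (ey l))
    (UKD D K0 K' ξ 0 p B x' v - fderiv ℝ (D.CC ξ 0) p (ey l))
  rw [add_sub_cancel] at h1
  have h2 : |UKD D K0 K' ξ 0 p B x' v - fderiv ℝ (D.CC ξ 0) p (ey l)| ≤
      A * (8 * wa ξ p * (m / p.1 l) + (2 * A2 D + 8) * wa ξ p * (m / p.1 l)) :=
    hs.trans (mul_le_mul_of_nonneg_left (add_le_add b2 (a3.trans b3)) hA)
  have h3 : (A2 D + A * (16 + 2 * A2 D)) * wa ξ p * (m / p.1 l) =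
      A2 D * wa ξ p * (m / p.1 l) +
      A * (8 * wa ξ p * (m / p.1 l) + (2 * A2 D + 8) * wa ξ p * (m / p.1 l)) := by ring
  rw [h3]
  exact h1.trans (add_le_add a1 h2)

end gen

/-! ### Theta configurations -/

/-- the size of the class -/
theorem sz_le (ξ : Fin 6 → ℝ) : sz (xeF ξ) (btF ξ) ≤ 3 * ‖ξ‖ := by
  have h0 : ∀ i, |ξ i| ≤ ‖ξ‖ := fun i => norm_le_pi_norm ξ i
  have h1 : ‖xeF ξ‖ ≤ ‖ξ‖ := by
    rw [pi_norm_le_iff_of_nonneg (norm_nonneg _)]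
    intro k
    fin_cases k <;> simp [xeF, xe, h0]
  have h2 : ‖btF ξ‖ ≤ 2 * ‖ξ‖ := by
    rw [pi_norm_le_iff_of_nonneg (by positivity)]
    intro k
    fin_cases k
    · simpa [btF, bt] using (abs_sub _ _).trans (show |ξ 1| + |ξ 0| ≤ 2 * ‖ξ‖ by
        linarith [h0 0, h0 1])
    · simpa [btF, bt] using (abs_sub _ _).trans (show |ξ 3| + |ξ 2| ≤ 2 * ‖ξ‖ by
        linarith [h0 3, h0 2])
    · simpa [btF, bt] using (abs_sub _ _).trans (show |ξ 5| + |ξ 4| ≤ 2 * ‖ξ‖ by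
        linarith [h0 5, h0 4])
  unfold sz
  linarith

theorem log16_nonneg : 0 ≤ Real.log 16 := Real.log_nonneg (by norm_num)

section cofacts

variable {R : H95.Region} {m : ∀ k, Fin (R.n k + 1)}

theorem bP_fst (p : Co R m) (k : Fin 3) : (bP R m p).1 k = p.2.2.1 k + 2 * Real.log 16 := rfl

theorem bP_snd (p : Co R m) : (bP R m p).2 = p.2.2.2.1 := rfl

theorem le_bP (p : Co R m) (k : Fin 3) : p.2.2.1 k ≤ (bP R m p).1 k := by
  rw [bP_fst]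
  linarith [log16_nonneg]

/-- the smallest length of the shifted base -/
theorem exists_min_bP (p : Co R m) : ∃ l, ∀ k, (bP R m p).1 l ≤ (bP R m p).1 k :=
  Finite.exists_min _

theorem wa_le_ww (ξ : Fin 6 → ℝ) {p : Co R m} (hy : ∀ k, 0 < p.2.2.1 k) :
    wa (xeF ξ) (bP R m p) ≤ H562.ww ξ p.2.2.1 := by
  unfold wa H562.ww
  refine Finset.sum_le_sum fun k _ => ?_
  exact div_le_div_of_nonneg_left (abs_nonneg _) (hy k) (le_bP p k)

theorem mn_mem (y : Fin 3 → ℝ) : ∃ k, mn y = y k := by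
  unfold mn
  rcases min_choice (y 0) (min (y 1) (y 2)) with h | h
  · exact ⟨0, h⟩
  · rcases min_choice (y 1) (y 2) with h' | h'
    · exact ⟨1, h.trans h'⟩
    · exact ⟨2, h.trans h'⟩

/-- long necks: everything that the estimates need -/
theorem exists_big (D : KapData (Fin 3)) {ρ : ℝ} (hρ : 0 < ρ) : ∃ N₀ : ℝ, 1 ≤ N₀ ∧
    ∀ (R : H95.Region) (m : ∀ k, Fin (R.n k + 1)) (p : Co R m), (∀ k, N₀ ≤ p.2.2.1 k) →
      ∃ μ : ℝ, D.Big μ (bP R m p) ∧ ‖ep (bP R m p)‖ < ρ ∧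
        μ ≤ (1 + 2 * Real.log 16) * mn p.2.2.1 := by
  have hρ' : 0 < min ρ D.ρ := lt_min hρ D.ρ_pos
  refine ⟨max (8 * D.κ + 1) (1 - Real.log (min ρ D.ρ)), le_trans ?_ (le_max_left _ _), ?_⟩
  · have := D.κ_one
    linarith
  intro R m p hp
  obtain ⟨l, hl⟩ := exists_min_bP p
  have hL := log16_nonneg
  have hκ := D.κ_one
  have h8 : ∀ k, 8 * D.κ + 1 ≤ p.2.2.1 k := fun k => (le_max_left _ _).trans (hp k)
  have hep : ‖ep (bP R m p)‖ < min ρ D.ρ := by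
    refine (norm_ep_le (m := 1 - Real.log (min ρ D.ρ)) fun k =>
      ((le_max_right _ _).trans (hp k)).trans (le_bP p k)).trans_lt ?_
    have h1 : Real.exp (-(1 - Real.log (min ρ D.ρ))) = min ρ D.ρ * Real.exp (-1) := by
      rw [neg_sub, sub_eq_add_neg, Real.exp_add, Real.exp_log hρ']
    rw [h1]
    have h2 : Real.exp (-1) < 1 := by
      rw [Real.exp_lt_one_iff]
      norm_num
    nlinarith
  refine ⟨(bP R m p).1 l, ⟨hl, ⟨l, le_rfl⟩, ?_, hep.trans_le (min_le_right _ _)⟩,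
    hep.trans_le (min_le_left _ _), ?_⟩
  · have := h8 l
    rw [bP_fst]
    linarith
  · obtain ⟨k, hk⟩ := mn_mem p.2.2.1
    have h1 : 1 ≤ mn p.2.2.1 := one_le_mn fun k => by linarith [h8 k]
    have h2 := hl k
    rw [bP_fst p k, ← hk] at h2
    nlinarith

theorem abs_le_seven {S : L → Bool} {N : ℝ} {p : Co R m} (hp : Adm R m S N p) (k : Fin 3) :
    |(bP R m p).2 k| ≤ 7 := by
  rw [bP_snd, abs_le]
  obtain ⟨h1, h2⟩ := hp.2.2.1 k
  exact ⟨h1, by linarith⟩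

/-! ### directions -/

variable (R m)

theorem bC_u (f : (W R m).Fr) : bC R m ((W R m).vec (C := R.Cm) (.u f)) = 0 := rfl
theorem bC_ph (f : (W R m).Fr) : bC R m ((W R m).vec (C := R.Cm) (.ph f)) = 0 := rfl
theorem bC_re (c : R.Cm) : bC R m ((W R m).vec (C := R.Cm) (.re c)) = 0 := rfl
theorem bC_im (c : R.Cm) : bC R m ((W R m).vec (C := R.Cm) (.im c)) = 0 := rfl
theorem bC_al (k : Fin 3) : bC R m ((W R m).vec (C := R.Cm) (.al k)) = ea k := rfl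
theorem bC_y (k : Fin 3) : bC R m ((W R m).vec (C := R.Cm) (.y k)) = ey k := rfl
theorem bC_eul (p : Co R m) (k : Fin 3) : bC R m ((W R m).eul p k) = ey k := rfl

variable (j : R.Cm)

theorem sC_u (f : (W R m).Fr) : sC R m j ((W R m).vec (C := R.Cm) (.u f)) = 0 := rfl
theorem sC_ph (f : (W R m).Fr) : sC R m j ((W R m).vec (C := R.Cm) (.ph f)) = 0 := rfl
theorem sC_al (k : Fin 3) : sC R m j ((W R m).vec (C := R.Cm) (.al k)) = 0 := rfl
theorem sC_y (k : Fin 3) : sC R m j ((W R m).vec (C := R.Cm) (.y k)) = 0 := rfl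
theorem sC_eul (p : Co R m) (k : Fin 3) : sC R m j ((W R m).eul p k) = 0 := rfl

theorem norm_sC_re (c : R.Cm) : ‖sC R m j ((W R m).vec (C := R.Cm) (.re c))‖ ≤ 1 := by
  show ‖(Pi.single c (1 : ℂ) : R.Cm → ℂ) j‖ ≤ 1
  by_cases h : j = c
  · subst h
    simp
  · rw [Pi.single_eq_of_ne h]
    simp

theorem norm_sC_im (c : R.Cm) : ‖sC R m j ((W R m).vec (C := R.Cm) (.im c))‖ ≤ 1 := by
  show ‖(Pi.single c Complex.I : R.Cm → ℂ) j‖ ≤ 1
  by_cases h : j = c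
  · subst h
    simp
  · rw [Pi.single_eq_of_ne h]
    simp

end cofacts

/-! ### The form of the leg and the five bounds -/

/-- **the form of the leg**: `±` the derivative of the core potential, primitive bounded at the
point -/
def CForm (D : KapData (Fin 3)) (Q : MarkP) (lg : LegF) : Prop :=
  ∃ A N₀ : ℝ, 0 ≤ A ∧ 1 ≤ N₀ ∧ ∀ R m S, FarOk R S → ∀ p, Adm R m S N₀ p → ∀ j, Q R S j →
    ∀ ξ, IsCl ξ → ∃ (c : R.Cm) (σ : ℝ) (K0 : (Fin 3 → ℂ) →L[ℂ] ℂ)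
      (K' : (Fin 3 → ℂ) × ℂ →L[ℝ] ((Fin 3 → ℂ) →L[ℂ] ℂ)), |σ| = 1 ∧ ‖K0‖ ≤ A ∧ ‖K'‖ ≤ A ∧
      lg R m S j ξ p = σ • UKD D K0 K' (xeF ξ) (btF ξ) (bP R m p) (bC R m) (sC R m c)

/-- from the pointwise form with `c = ⟨j, _⟩` (helper951's `CoreForm Q D lg`, unfolded) -/
theorem cform_of {D : KapData (Fin 3)} {Q : MarkP} {lg : LegF}
    (hQ : ∀ R S j, Q R S j → ∃ b, R.pl j = Sum.inr b)
    (h : ∃ A N₀ : ℝ, 0 ≤ A ∧ 1 ≤ N₀ ∧ ∀ R m S, FarOk R S → ∀ p, Adm R m S N₀ p →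
      ∀ (j : L) (s : Bool) (h : R.pl j = Sum.inr s), Q R S j → ∀ ξ, IsCl ξ →
      ∃ (K0 : (Fin 3 → ℂ) →L[ℂ] ℂ) (K' : (Fin 3 → ℂ) × ℂ →L[ℝ] ((Fin 3 → ℂ) →L[ℂ] ℂ)),
        ‖K0‖ ≤ A ∧ ‖K'‖ ≤ A ∧ ∀ v, lg R m S j ξ p v = (if s then -1 else 1) *
          UKD D K0 K' (xeF ξ) (btF ξ) (bP R m p) (bC R m) (sC R m ⟨j, by simp [h]⟩) v) :
    CForm D Q lg := by
  obtain ⟨A, N₀, hA, hN, H⟩ := h
  refine ⟨A, N₀, hA, hN, ?_⟩
  intro R m S hS p hp j hj ξ hξ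
  obtain ⟨s, hs⟩ := hQ R S j hj
  obtain ⟨K0, K', h1, h2, h3⟩ := H R m S hS p hp j s hs hj ξ hξ
  refine ⟨⟨j, by simp [hs]⟩, if s then -1 else 1, K0, K', ?_, h1, h2, ?_⟩
  · cases s <;> simp
  · exact ContinuousLinearMap.ext fun v => h3 v

namespace CForm

variable {D : KapData (Fin 3)} {Q : MarkP} {lg : LegF}

theorem abs_smul_apply {E : Type*} [NormedAddCommGroup E] [NormedSpace ℝ E] {σ : ℝ}
    (hσ : |σ| = 1) (T : E →L[ℝ] ℝ) (v : E) : |(σ • T) v| = |T v| := by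
  rw [smul_apply, smul_eq_mul, abs_mul, hσ, one_mul]

/-- bound of all legs -/
theorem b1 (h : CForm D Q lg) :
    ∃ K N₀ : ℝ, 1 ≤ N₀ ∧ ∀ R m S, FarOk R S → ∀ p, Adm R m S N₀ p → ∀ j, Q R S j →
      ∀ ξ, IsCl ξ → ∀ d : (W R m).Dir R.Cm, (∀ k, d ≠ .y k) →
        |lg R m S j ξ p ((W R m).vec d)| ≤ K * ‖ξ‖ := by
  obtain ⟨A, N₁, hA, hN₁, h⟩ := h
  obtain ⟨N₂, -, H⟩ := exists_big D one_pos
  have hN : 1 ≤ max N₁ N₂ := hN₁.trans (le_max_left _ _)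
  refine ⟨3 * (1 + A) * (D.A0 7 + 1), max N₁ N₂, hN, ?_⟩
  intro R m S hS p hp j hj ξ hξ d hd
  obtain ⟨μ, hμ, -, -⟩ := H R m p (adm_mono (le_max_right _ _) hp).2.1
  obtain ⟨c, σ, K0, K', hσ, hK0, hK', he⟩ := h R m S hS p (adm_mono (le_max_left _ _) hp) j hj ξ hξ
  have hΛ := abs_le_seven hp
  rw [he, abs_smul_apply hσ]
  have hsz := sz_le ξ
  have hs0 := sz_nonneg (xeF ξ) (btF ξ)
  obtain ⟨hm8, hZ, hβ, -⟩ := nums hμ hΛ (xeF ξ) (btF ξ)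
  have hA0 : 0 ≤ D.A0 7 := by
    have h1 := D.κ_one
    have h2 : (0 : ℝ) ≤ nn (Fin 3) := nn_nonneg
    unfold KapData.A0 KapData.W0 KapData.B0
    positivity
  have hxi := norm_nonneg ξ
  have hK : 0 ≤ 3 * (1 + A) * (D.A0 7 + 1) * ‖ξ‖ := by positivity
  have hx : ∀ v : Co R m, bC R m v = 0 → ‖sC R m c v‖ ≤ 1 →
      |UKD D K0 K' (xeF ξ) (btF ξ) (bP R m p) (bC R m) (sC R m c) v| ≤
        3 * (1 + A) * (D.A0 7 + 1) * ‖ξ‖ := by
    intro v hv hv1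
    have hβ' : ‖btF ξ‖ ≤ sz (xeF ξ) (btF ξ) := le_add_of_nonneg_left (norm_nonneg _)
    have e1 : D.A0 7 * sz (xeF ξ) (btF ξ) / μ ≤ D.A0 7 * sz (xeF ξ) (btF ξ) :=
      div_le_self hZ (by linarith)
    calc |UKD D K0 K' (xeF ξ) (btF ξ) (bP R m p) (bC R m) (sC R m c) v|
        ≤ A * (D.A0 7 * sz (xeF ξ) (btF ξ) / μ + ‖btF ξ‖) * ‖sC R m c v‖ :=
          UK_x hμ hΛ hK' hv
      _ ≤ A * (D.A0 7 * sz (xeF ξ) (btF ξ) / μ + ‖btF ξ‖) * 1 :=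
          mul_le_mul_of_nonneg_left hv1 (by positivity)
      _ ≤ A * (D.A0 7 * (3 * ‖ξ‖) + 3 * ‖ξ‖) := by
          rw [mul_one]
          refine mul_le_mul_of_nonneg_left (add_le_add (e1.trans ?_) (hβ'.trans hsz)) hA
          exact mul_le_mul_of_nonneg_left hsz hA0
      _ ≤ (1 + A) * (D.A0 7 * (3 * ‖ξ‖) + 3 * ‖ξ‖) :=
          mul_le_mul_of_nonneg_right (by linarith) (by positivity)
      _ = _ := by ring
  rcases d with f | f | k | k | c' | c'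
  · rw [UKD_zero (bC_u R m f) (sC_u R m c f), abs_zero]
    exact hK
  · rw [UKD_zero (bC_ph R m f) (sC_ph R m c f), abs_zero]
    exact hK
  · exact absurd rfl (hd k)
  · refine (UK_a hμ hΛ hK0 hK' (xeF ξ) (btF ξ) (bC_al R m k) (sC_al R m c k)).1.trans ?_
    calc (1 + A) * (D.A0 7 * sz (xeF ξ) (btF ξ)) ≤ (1 + A) * (D.A0 7 * (3 * ‖ξ‖)) :=
          mul_le_mul_of_nonneg_left (mul_le_mul_of_nonneg_left hsz hA0) (by positivity)
      _ ≤ (1 + A) * (D.A0 7 * (3 * ‖ξ‖) + 3 * ‖ξ‖) :=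
          mul_le_mul_of_nonneg_left (by linarith) (by positivity)
      _ = _ := by ring
  · exact hx _ (bC_re R m c') (norm_sC_re R m c c')
  · exact hx _ (bC_im R m c') (norm_sC_im R m c c')

/-- legs at a gap: zero -/
theorem b2 (h : CForm D Q lg) :
    ∃ K N₀ : ℝ, 1 ≤ N₀ ∧ ∀ R m S, FarOk R S → ∀ p, Adm R m S N₀ p → ∀ j, Q R S j →
      ∀ ξ, IsCl ξ → ∀ f : (W R m).Fr, ∀ d : (W R m).Dir R.Cm, (d = .u f ∨ d = .ph f) →
        |lg R m S j ξ p ((W R m).vec d)| ≤ K * (|bt ξ ((W R m).nk f.1)| +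
          ‖ξ‖ * (1 / p.2.2.1 ((W R m).nk f.1) + Real.exp (-p.1 f))) := by
  obtain ⟨A, N₁, hA, hN₁, h⟩ := h
  obtain ⟨N₂, -, H⟩ := exists_big D one_pos
  have hN : 1 ≤ max N₁ N₂ := hN₁.trans (le_max_left _ _)
  refine ⟨0, max N₁ N₂, hN, ?_⟩
  intro R m S hS p hp j hj ξ hξ f d hd
  obtain ⟨μ, hμ, -, -⟩ := H R m p (adm_mono (le_max_right _ _) hp).2.1
  obtain ⟨c, σ, K0, K', hσ, hK0, hK', he⟩ := h R m S hS p (adm_mono (le_max_left _ _) hp) j hj ξ hξ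
  rw [he, abs_smul_apply hσ, zero_mul]
  rcases hd with rfl | rfl
  · rw [UKD_zero (bC_u R m f) (sC_u R m c f), abs_zero]
  · rw [UKD_zero (bC_ph R m f) (sC_ph R m c f), abs_zero]

/-- legs at the base angles -/
theorem b4 (h : CForm D Q lg) :
    ∃ K N₀ : ℝ, 1 ≤ N₀ ∧ ∀ R m S, FarOk R S → ∀ p, Adm R m S N₀ p → ∀ j, Q R S j →
      ∀ ξ, IsCl ξ → ∀ k, |lg R m S j ξ p ((W R m).vec (.al k))| ≤
        K * (|bt ξ k| + ‖ξ‖ / p.2.2.1 k) := by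
  obtain ⟨A, N₁, hA, hN₁, h⟩ := h
  obtain ⟨N₂, -, H⟩ := exists_big D one_pos
  have hN : 1 ≤ max N₁ N₂ := hN₁.trans (le_max_left _ _)
  have hκ := D.κ_one
  have hn : (0 : ℝ) ≤ nn (Fin 3) := nn_nonneg
  have hC : 0 ≤ 2 * nn (Fin 3) * D.B0 7 + D.A0 7 := by
    unfold KapData.A0 KapData.W0 KapData.B0
    positivity
  refine ⟨(1 + A) * (1 + 3 * (2 * nn (Fin 3) * D.B0 7 + D.A0 7)), max N₁ N₂, hN, ?_⟩
  intro R m S hS p hp j hj ξ hξ k
  obtain ⟨μ, hμ, -, -⟩ := H R m p (adm_mono (le_max_right _ _) hp).2.1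
  obtain ⟨c, σ, K0, K', hσ, hK0, hK', he⟩ := h R m S hS p (adm_mono (le_max_left _ _) hp) j hj ξ hξ
  have hΛ := abs_le_seven hp
  have hy := adm_y_pos hN hp k
  rw [he, abs_smul_apply hσ]
  refine (UK_a_sharp hμ hΛ hK0 hK' (xeF ξ) (btF ξ) (bC_al R m k) (sC_al R m c k)).trans ?_
  set C := 2 * nn (Fin 3) * D.B0 7 + D.A0 7
  have hbt : |btF ξ k| = |bt ξ k| := rfl
  have e1 : C * sz (xeF ξ) (btF ξ) / (bP R m p).1 k ≤ 3 * C * (‖ξ‖ / p.2.2.1 k) := by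
    calc C * sz (xeF ξ) (btF ξ) / (bP R m p).1 k ≤ C * (3 * ‖ξ‖) / p.2.2.1 k :=
          div_le_div₀ (by positivity) (mul_le_mul_of_nonneg_left (sz_le ξ) hC) hy (le_bP p k)
      _ = _ := by ring
  have e2 : 0 ≤ ‖ξ‖ / p.2.2.1 k := by positivity
  have e3 : 0 ≤ |bt ξ k| := abs_nonneg _
  rw [mul_assoc]
  refine mul_le_mul_of_nonneg_left ?_ (by linarith)
  rw [hbt]
  nlinarith [mul_nonneg hC e3]

/-- legs at the Euler vectors -/
theorem b5 (h : CForm D Q lg) :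
    ∃ K N₀ : ℝ, 1 ≤ N₀ ∧ ∀ R m S, FarOk R S → ∀ p, Adm R m S N₀ p → ∀ j, Q R S j →
      ∀ ξ, IsCl ξ → ∀ k, |lg R m S j ξ p ((W R m).eul p k)| ≤ K * (‖ξ‖ / p.2.2.1 k) := by
  obtain ⟨A, N₁, hA, hN₁, h⟩ := h
  obtain ⟨N₂, -, H⟩ := exists_big D one_pos
  have hN : 1 ≤ max N₁ N₂ := hN₁.trans (le_max_left _ _)
  have hκ := D.κ_one
  have hn : (0 : ℝ) ≤ nn (Fin 3) := nn_nonneg
  have hA0 : 0 ≤ D.A0 7 := by
    unfold KapData.A0 KapData.W0 KapData.B0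
    positivity
  refine ⟨(1 + 5 * A) * (3 * D.A0 7), max N₁ N₂, hN, ?_⟩
  intro R m S hS p hp j hj ξ hξ k
  obtain ⟨μ, hμ, -, -⟩ := H R m p (adm_mono (le_max_right _ _) hp).2.1
  obtain ⟨c, σ, K0, K', hσ, hK0, hK', he⟩ := h R m S hS p (adm_mono (le_max_left _ _) hp) j hj ξ hξ
  have hΛ := abs_le_seven hp
  have hy := adm_y_pos hN hp k
  have hv : bC R m ((W R m).eul p k) = (1 : ℝ) • ey k := by rw [bC_eul, one_smul]
  rw [he, abs_smul_apply hσ]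
  refine (UK_y hμ hΛ hK0 hK' (xeF ξ) (btF ξ) hv (sC_eul R m c p k)).1.trans ?_
  obtain ⟨hm8, hZ, -, -⟩ := nums hμ hΛ (xeF ξ) (btF ξ)
  have hl := hμ.le k
  have hl0 : (0 : ℝ) < (bP R m p).1 k := by linarith
  have e1 : |(1 : ℝ)| * (μ / (bP R m p).1 k ^ 2) ≤ 1 / p.2.2.1 k := by
    rw [abs_one, one_mul]
    calc μ / (bP R m p).1 k ^ 2 ≤ (bP R m p).1 k / (bP R m p).1 k ^ 2 :=
          div_le_div_of_nonneg_right hl (by positivity)
      _ = 1 / (bP R m p).1 k := by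
          field_simp
      _ ≤ 1 / p.2.2.1 k := one_div_le_one_div_of_le hy (le_bP p k)
  calc (1 + 5 * A) * (D.A0 7 * sz (xeF ξ) (btF ξ)) * (|(1 : ℝ)| * (μ / (bP R m p).1 k ^ 2))
      ≤ (1 + 5 * A) * (D.A0 7 * (3 * ‖ξ‖)) * (1 / p.2.2.1 k) := by
        refine mul_le_mul (mul_le_mul_of_nonneg_left
          (mul_le_mul_of_nonneg_left (sz_le ξ) hA0) (by positivity)) e1 ?_ (by positivity)
        have : 0 < μ := by linarith
        positivity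
    _ = _ := by ring

/-- classes that are constant on the three pairs -/
theorem b6 (h : CForm D Q lg) :
    ∃ K N₀ : ℝ, 1 ≤ N₀ ∧ ∀ R m S, FarOk R S → ∀ p, Adm R m S N₀ p → ∀ j, Q R S j →
      ∀ ξ, IsCl ξ → (∀ k, bt ξ k = 0) →
      (∀ d : (W R m).Dir R.Cm, (∀ k, d ≠ .y k) →
        |lg R m S j ξ p ((W R m).vec d)| ≤ K * H562.ww ξ p.2.2.1) ∧
      ∀ k, |lg R m S j ξ p ((W R m).eul p k)| ≤
        K * (H562.ww ξ p.2.2.1 * (mn p.2.2.1 / p.2.2.1 k)) := by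
  obtain ⟨A, N₁, hA, hN₁, h⟩ := h
  obtain ⟨N₂, -, H⟩ := exists_big D one_pos
  have hN : 1 ≤ max N₁ N₂ := hN₁.trans (le_max_left _ _)
  have hA2 := one_le_A2 D
  have hL := log16_nonneg
  refine ⟨(A2 D + A * (16 + 2 * A2 D)) * (1 + 2 * Real.log 16), max N₁ N₂, hN, ?_⟩
  intro R m S hS p hp j hj ξ hξ hb
  obtain ⟨μ, hμ, -, hμn⟩ := H R m p (adm_mono (le_max_right _ _) hp).2.1
  obtain ⟨c, σ, K0, K', hσ, hK0, hK', he⟩ := h R m S hS p (adm_mono (le_max_left _ _) hp) j hj ξ hξ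
  have hy := adm_y_pos hN hp
  have hww := ww_nonneg ξ hy
  have hwa := wa_nonneg hμ (xeF ξ)
  have hle := wa_le_ww ξ hy
  have hm8 := hμ.pos
  have hbt : btF ξ = 0 := funext hb
  rw [hbt] at he
  set C := A2 D + A * (16 + 2 * A2 D) with hCd
  have hC : 0 ≤ C := by positivity
  have hCC : C ≤ C * (1 + 2 * Real.log 16) := le_mul_of_one_le_right hC (by linarith)
  have hK : 0 ≤ C * (1 + 2 * Real.log 16) * H562.ww ξ p.2.2.1 := by positivity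
  have hfin : ∀ t : ℝ, t ≤ C → t * wa (xeF ξ) (bP R m p) ≤
      C * (1 + 2 * Real.log 16) * H562.ww ξ p.2.2.1 := fun t ht =>
    mul_le_mul (ht.trans hCC) hle hwa (by positivity)
  have hx : ∀ v : Co R m, bC R m v = 0 → ‖sC R m c v‖ ≤ 1 →
      |UKD D K0 K' (xeF ξ) 0 (bP R m p) (bC R m) (sC R m c) v| ≤
        C * (1 + 2 * Real.log 16) * H562.ww ξ p.2.2.1 := by
    intro v hv hv1
    calc |UKD D K0 K' (xeF ξ) 0 (bP R m p) (bC R m) (sC R m c) v|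
        ≤ 8 * A * wa (xeF ξ) (bP R m p) * ‖sC R m c v‖ := UK_x0 hμ hK' (xeF ξ) hv
      _ ≤ 8 * A * wa (xeF ξ) (bP R m p) := mul_le_of_le_one_right (by positivity) hv1
      _ ≤ _ := hfin _ (by rw [hCd]; nlinarith)
  refine ⟨fun d hd => ?_, fun k => ?_⟩
  · rw [he, abs_smul_apply hσ]
    rcases d with f | f | k | k | c' | c'
    · rw [UKD_zero (bC_u R m f) (sC_u R m c f), abs_zero]
      exact hK
    · rw [UKD_zero (bC_ph R m f) (sC_ph R m c f), abs_zero]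
      exact hK
    · exact absurd rfl (hd k)
    · refine (UK_a0 hμ hK0 hK' (xeF ξ) (bC_al R m k) (sC_al R m c k)).trans (hfin _ ?_)
      rw [hCd]
      nlinarith
    · exact hx _ (bC_re R m c') (norm_sC_re R m c c')
    · exact hx _ (bC_im R m c') (norm_sC_im R m c c')
  · rw [he, abs_smul_apply hσ]
    refine (UK_y0 hμ hK0 hK' (xeF ξ) (bC_eul R m p k) (sC_eul R m c p k)).trans ?_
    have hl := hμ.le k
    have hl0 : (0 : ℝ) < (bP R m p).1 k := by linarith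
    have hmn := mn_pos hy
    have e1 : μ / (bP R m p).1 k ≤ (1 + 2 * Real.log 16) * mn p.2.2.1 / p.2.2.1 k :=
      div_le_div₀ (by positivity) hμn (hy k) (le_bP p k)
    calc C * wa (xeF ξ) (bP R m p) * (μ / (bP R m p).1 k)
        ≤ C * H562.ww ξ p.2.2.1 * ((1 + 2 * Real.log 16) * mn p.2.2.1 / p.2.2.1 k) := by
          refine mul_le_mul (mul_le_mul_of_nonneg_left hle hC) e1 ?_ (by positivity)
          have : 0 < μ := by linarith
          positivity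
      _ = _ := by ring

end CForm

end Vale.Agent.P273.H680

end
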