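import Vale.Agent.P273.H680.X0
import Vale.Agent.P273.H183.Fam

/-!
# P273, row EXT-X0, second part: the form of a stable family in the coordinates of the wall

`push k (F m C)` for a natural closed form `F`, a stable family `C` over a part of `ℂ^m` and a
linear isomorphism `k : ℂ^m ≃L M` (`k20`, `k17 R`, `k20' R`).
-/

set_option linter.unusedSectionVars false

noncomputable section

namespace Vale.Agent.P273.H680

open Set Filter H95 H183
open scoped Topology ContDiff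

variable {L' : Type} {m m' n : ℕ} {M M' : Type}
  [NormedAddCommGroup M] [NormedSpace ℂ M] [NormedSpace ℝ M] [IsScalarTower ℝ ℂ M]
  [NormedAddCommGroup M'] [NormedSpace ℂ M'] [NormedSpace ℝ M'] [IsScalarTower ℝ ℂ M']

/-- Smooth and closed. -/
theorem fam_push {F : ∀ m, Fam L' m → (Fin m → ℂ) → (Fin m → ℂ) [⋀^Fin n]→L[ℝ] ℝ}
    (hF : IsClosedForm L' n F) {C : Fam L' m} (hC : C.IsStable) (k : (Fin m → ℂ) ≃L[ℂ] M) :
    IsOpen (k.symm ⁻¹' C.B) ∧ ContDiffOn ℝ ∞ (push k (F m C)) (k.symm ⁻¹' C.B) ∧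
      ∀ p ∈ k.symm ⁻¹' C.B, extDeriv (push k (F m C)) p = 0 :=
  push_closed k hC.1 (hF.1 m C hC).1 (hF.1 m C hC).2

/-- Naturality in the coordinates of the wall: from the equality in `ℂ^m` (507's `F_eq_good`). -/
theorem push_eq {f : (Fin m → ℂ) → Alt n (Fin m → ℂ)} {f' : (Fin m' → ℂ) → Alt n (Fin m' → ℂ)}
    (k' : (Fin m' → ℂ) ≃L[ℂ] M') (k : (Fin m → ℂ) ≃L[ℂ] M) {φ : M' → M} {p : M'}
    (hφ : AnalyticAt ℂ φ p)
    (h : f' (k'.symm p) = (f (conj k' k φ (k'.symm p))).compContinuousLinearMap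
        (fderiv ℝ (conj k' k φ) (k'.symm p))) :
    push k' f' p = (push k f (φ p)).compContinuousLinearMap (fderiv ℝ φ p) :=
  (push_nat k' k (diff_real hφ)).1 h

/-- Naturality in the coordinates of the wall, for a morphism of families. -/
theorem fam_nat {F : ∀ m, Fam L' m → (Fin m → ℂ) → (Fin m → ℂ) [⋀^Fin n]→L[ℝ] ℝ}
    (hF : IsClosedForm L' n F) {C : Fam L' m} {C' : Fam L' m'} (hC : C.IsStable)
    (hC' : C'.IsStable) (k' : (Fin m' → ℂ) ≃L[ℂ] M') (k : (Fin m → ℂ) ≃L[ℂ] M) {φ : M' → M}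
    {Φ : C'.X → C.X} (hm : IsMor C' C (conj k' k φ) Φ) {p : M'} (hp : k'.symm p ∈ C'.B)
    (hφ : AnalyticAt ℂ φ p) :
    push k' (F m' C') p = (push k (F m C) (φ p)).compContinuousLinearMap (fderiv ℝ φ p) :=
  push_eq k' k hφ (hF.2 m m' C C' _ Φ hC hC' hm _ hp)

/-- `conj` of the identity. -/
@[simp] theorem conj_id {A : Type} [NormedAddCommGroup A] [NormedSpace ℂ A] (k : A ≃L[ℂ] M) :
    conj k k (id : M → M) = id := by
  funext q
  simp [conj]

theorem conj_comp {A A' A'' M'' : Type} [NormedAddCommGroup A] [NormedSpace ℂ A]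
    [NormedAddCommGroup A'] [NormedSpace ℂ A'] [NormedAddCommGroup A''] [NormedSpace ℂ A'']
    [NormedAddCommGroup M''] [NormedSpace ℂ M''] (k : A ≃L[ℂ] M) (k' : A' ≃L[ℂ] M')
    (k'' : A'' ≃L[ℂ] M'') (φ : M' → M) (ψ : M'' → M') (q : A'') :
    conj k'' k (fun x => φ (ψ x)) q = conj k' k φ (conj k'' k' ψ q) := by
  simp [conj]

/-- The image of an open set of the wall space, back in `ℂ^m`. -/
theorem mem_image_iff {A : Type} [NormedAddCommGroup A] [NormedSpace ℂ A] (k : A ≃L[ℂ] M)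
    {W : Set A} {p : M} : p ∈ k '' W ↔ k.symm p ∈ W := by
  constructor
  · rintro ⟨q, hq, rfl⟩
    simpa using hq
  · intro h
    exact ⟨_, h, by simp⟩

end Vale.Agent.P273.H680

end
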