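import Vale.Agent.P273.H95.Wall

/-!
# P273, row EXT-X0: the coordinate spaces of the wall as `ℂ^m`, transport of forms

* `cof`: `ℂ^n ≃L (ι → ℂ) × (κ → ℂ)` if `card ι + card κ = n`;
* `k20`: `ℂ^20 ≃L E`, `k17 R`: `ℂ^17 ≃L R.Sp` (three necks), `k20' R`: `ℂ^20 ≃L R.Sp` (one neck);
* `push k f`: the form `f` on `ℂ^m` in the coordinates of `M`; `pull k g`: the inverse;
  smoothness, closedness and naturality are transported.
-/

set_option linter.unusedSectionVars false

noncomputable section

namespace Vale.Agent.P273.H680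

open Set Filter H95
open scoped Topology ContDiff

/-! ### coordinates -/

section cof
variable {ι κ : Type} [Fintype ι] [Fintype κ] {n : ℕ}

/-- A numbering of the coordinates. -/
def idx (h : Fintype.card ι + Fintype.card κ = n) : ι ⊕ κ ≃ Fin n :=
  Fintype.equivFinOfCardEq (by rw [Fintype.card_sum, h])

/-- `ℂ^n` as a product of two coordinate spaces. -/
def cof (h : Fintype.card ι + Fintype.card κ = n) : (Fin n → ℂ) ≃L[ℂ] (ι → ℂ) × (κ → ℂ) :=
  ((LinearEquiv.funCongrLeft ℂ ℂ (idx h)).trans
    (LinearEquiv.sumArrowLequivProdArrow ι κ ℂ ℂ)).toContinuousLinearEquiv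

theorem cof_fst (h : Fintype.card ι + Fintype.card κ = n) (q : Fin n → ℂ) (i : ι) :
    (cof h q).1 i = q (idx h (Sum.inl i)) := rfl

theorem cof_snd (h : Fintype.card ι + Fintype.card κ = n) (q : Fin n → ℂ) (j : κ) :
    (cof h q).2 j = q (idx h (Sum.inr j)) := rfl

theorem cof_symm_inl (h : Fintype.card ι + Fintype.card κ = n) (p : (ι → ℂ) × (κ → ℂ)) (i : ι) :
    (cof h).symm p (idx h (Sum.inl i)) = p.1 i := by
  rw [← cof_fst h ((cof h).symm p) i, ContinuousLinearEquiv.apply_symm_apply]

theorem cof_symm_inr (h : Fintype.card ι + Fintype.card κ = n) (p : (ι → ℂ) × (κ → ℂ)) (j : κ) :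
    (cof h).symm p (idx h (Sum.inr j)) = p.2 j := by
  rw [← cof_snd h ((cof h).symm p) j, ContinuousLinearEquiv.apply_symm_apply]

end cof

theorem card20 : Fintype.card (Fin 6) + Fintype.card L = 20 := by
  simp [L]

/-- `ℂ^20` and the space of (coefficients, marks). -/
def k20 : (Fin 20 → ℂ) ≃L[ℂ] E := cof card20

theorem card17 (R : Region) : Fintype.card R.Gap + Fintype.card R.Cm = 17 := by
  classical
  have h1 : Fintype.card R.Gap = 3 + ∑ k : Fin 3, R.n k := by
    rw [Fintype.card_sigma]
    simp only [Fintype.card_fin]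
    rw [Finset.sum_add_distrib]
    simp [add_comm]
  have h2 : ∑ k : Fin 3, R.n k = Fintype.card {j : L // ¬ (R.pl j).isRight = true} := by
    rw [Fintype.card_subtype]
    have : (Finset.univ.filter fun j : L => ¬ (R.pl j).isRight = true)
        = Finset.univ.biUnion fun k : Fin 3 => Finset.univ.filter fun y => R.pl y = Sum.inl k := by
      ext j
      rcases h : R.pl j with k | s <;> simp [h]
    rw [this, Finset.card_biUnion]
    · rfl
    · intro k _ l _ hkl
      rw [Function.onFun, Finset.disjoint_left]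
      intro j hj hj'
      simp only [Finset.mem_filter, Finset.mem_univ, true_and] at hj hj'
      rw [hj] at hj'
      exact hkl (Sum.inl_injective hj')
  have h3 : Fintype.card {j : L // ¬ (R.pl j).isRight = true}
      + Fintype.card {j : L // (R.pl j).isRight = true} = 14 := by
    rw [add_comm, Fintype.card_subtype_compl]
    have hle := Fintype.card_subtype_le fun j : L => (R.pl j).isRight = true
    have h14 : Fintype.card L = 14 := by simp [L]
    omega
  rw [h1, h2]
  show 3 + _ + Fintype.card {j : L // (R.pl j).isRight = true} = 17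
  omega

/-- `ℂ^17` and the coordinates of a region with three necks. -/
def k17 (R : Region) : (Fin 17 → ℂ) ≃L[ℂ] R.Sp := cof (card17 R)

theorem card20' (R : Region1) : Fintype.card (Fin (R.n + 1)) + Fintype.card (R.Cm ⊕ Fin 5) = 20 := by
  classical
  have h2 : R.n = Fintype.card {j : L // ¬ R.nk j = false} := by
    rw [Fintype.card_subtype]
    show (Finset.univ.filter fun y => R.nk y = true).card = _
    congr 1
    ext j
    simp
  have h3 : Fintype.card {j : L // ¬ R.nk j = false} + Fintype.card {j : L // R.nk j = false}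
      = 14 := by
    rw [add_comm, Fintype.card_subtype_compl]
    have hle := Fintype.card_subtype_le fun j : L => R.nk j = false
    have h14 : Fintype.card L = 14 := by simp [L]
    omega
  rw [Fintype.card_fin, Fintype.card_sum, Fintype.card_fin, h2]
  show _ + 1 + (Fintype.card {j : L // R.nk j = false} + 5) = 20
  omega

/-- `ℂ^20` and the coordinates of a region with one neck. -/
def k20' (R : Region1) : (Fin 20 → ℂ) ≃L[ℂ] R.Sp := cof (card20' R)

/-! ### transport of forms -/

section push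
variable {A M M' : Type} [NormedAddCommGroup A] [NormedSpace ℂ A] [NormedSpace ℝ A]
  [IsScalarTower ℝ ℂ A]
  [NormedAddCommGroup M] [NormedSpace ℂ M] [NormedSpace ℝ M] [IsScalarTower ℝ ℂ M]
  {n : ℕ}

/-- The real linear equivalence. -/
def re (k : A ≃L[ℂ] M) : A ≃L[ℝ] M :=
  ContinuousLinearEquiv.equivOfInverse ((k : A →L[ℂ] M).restrictScalars ℝ)
    ((k.symm : M →L[ℂ] A).restrictScalars ℝ) (fun x => k.symm_apply_apply x)
    (fun x => k.apply_symm_apply x)

@[simp] theorem re_apply (k : A ≃L[ℂ] M) (a : A) : re k a = k a := rfl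
@[simp] theorem re_symm_apply (k : A ≃L[ℂ] M) (p : M) : (re k).symm p = k.symm p := rfl

/-- The form `f` on `A` in the coordinates of `M`. -/
def push (k : A ≃L[ℂ] M) (f : A → Alt n A) (p : M) : Alt n M :=
  (f (k.symm p)).compContinuousLinearMap ((re k).symm : M →L[ℝ] A)

/-- The form `g` on `M` in the coordinates of `A`. -/
def pull (k : A ≃L[ℂ] M) (g : M → Alt n M) (q : A) : Alt n A :=
  (g (k q)).compContinuousLinearMap (re k : A →L[ℝ] M)

theorem push_apply (k : A ≃L[ℂ] M) (f : A → Alt n A) (p : M) (v : Fin n → M) :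
    push k f p v = f (k.symm p) fun i => k.symm (v i) := rfl

theorem pull_apply (k : A ≃L[ℂ] M) (g : M → Alt n M) (q : A) (v : Fin n → A) :
    pull k g q v = g (k q) fun i => k (v i) := rfl

@[simp] theorem push_pull (k : A ≃L[ℂ] M) (g : M → Alt n M) : push k (pull k g) = g := by
  funext p
  ext v
  simp [push_apply, pull_apply]

@[simp] theorem pull_push (k : A ≃L[ℂ] M) (f : A → Alt n A) : pull k (push k f) = f := by
  funext p
  ext v
  simp [push_apply, pull_apply]

theorem contDiffOn_push (k : A ≃L[ℂ] M) {f : A → Alt n A} {W : Set A} {r : WithTop ℕ∞}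
    (hf : ContDiffOn ℝ r f W) : ContDiffOn ℝ r (push k f) (k.symm ⁻¹' W) := by
  have h1 : ContDiffOn ℝ r (fun p : M => f (k.symm p)) (k.symm ⁻¹' W) :=
    hf.comp ((re k).symm.contDiff.contDiffOn) (fun p hp => hp)
  exact (ContinuousAlternatingMap.compContinuousLinearMapCLM
    ((re k).symm : M →L[ℝ] A)).contDiff.comp_contDiffOn h1

theorem contDiffOn_push' (k : A ≃L[ℂ] M) {f : A → Alt n A} {W : Set A} {r : WithTop ℕ∞}
    (hf : ContDiffOn ℝ r f W) : ContDiffOn ℝ r (push k f) (k '' W) := by
  have h : k '' W = k.symm ⁻¹' W := k.image_eq_preimage_symm W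
  rw [h]
  exact contDiffOn_push k hf

theorem extDeriv_push (k : A ≃L[ℂ] M) {f : A → Alt n A} {p : M}
    (hf : DifferentiableAt ℝ f (k.symm p)) :
    extDeriv (push k f) p
      = (extDeriv f (k.symm p)).compContinuousLinearMap ((re k).symm : M →L[ℝ] A) := by
  have hd : ∀ x : M, fderiv ℝ (fun x : M => k.symm x) x = ((re k).symm : M →L[ℝ] A) := fun x =>
    ((re k).symm : M →L[ℝ] A).fderiv
  have hc : ContDiffAt ℝ 2 (fun x : M => k.symm x) p := (re k).symm.contDiff.contDiffAt
  have h := extDeriv_pullback (𝕜 := ℝ) (x := p) (f := fun x : M => k.symm x) hf hc (by simp)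
  rw [hd] at h
  rw [← h]
  congr 1
  funext x
  rw [hd]
  rfl

theorem extDeriv_push_zero (k : A ≃L[ℂ] M) {f : A → Alt n A} {p : M}
    (hf : DifferentiableAt ℝ f (k.symm p)) (h0 : extDeriv f (k.symm p) = 0) :
    extDeriv (push k f) p = 0 := by
  rw [extDeriv_push k hf, h0]
  ext v
  simp

/-- Smooth and closed on an open set: transported. -/
theorem push_closed (k : A ≃L[ℂ] M) {f : A → Alt n A} {W : Set A} (hW : IsOpen W)
    (hf : ContDiffOn ℝ ∞ f W) (h0 : ∀ q ∈ W, extDeriv f q = 0) :
    IsOpen (k.symm ⁻¹' W) ∧ ContDiffOn ℝ ∞ (push k f) (k.symm ⁻¹' W) ∧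
      ∀ p ∈ k.symm ⁻¹' W, extDeriv (push k f) p = 0 := by
  refine ⟨hW.preimage k.symm.continuous, contDiffOn_push k hf, fun p hp => ?_⟩
  refine extDeriv_push_zero k ?_ (h0 _ hp)
  exact (hf.contDiffAt (hW.mem_nhds hp)).differentiableAt (by simp)

/-- The map `φ` in the coordinates `A'`, `A`. -/
def conj {A' M' : Type} [NormedAddCommGroup A'] [NormedSpace ℂ A'] [NormedAddCommGroup M']
    [NormedSpace ℂ M'] (k' : A' ≃L[ℂ] M') (k : A ≃L[ℂ] M) (φ : M' → M) (q : A') : A :=
  k.symm (φ (k' q))

section nat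
variable {A' M' : Type} [NormedAddCommGroup A'] [NormedSpace ℂ A'] [NormedSpace ℝ A']
  [IsScalarTower ℝ ℂ A']
  [NormedAddCommGroup M'] [NormedSpace ℂ M'] [NormedSpace ℝ M'] [IsScalarTower ℝ ℂ M']

theorem fderiv_conj (k' : A' ≃L[ℂ] M') (k : A ≃L[ℂ] M) {φ : M' → M} {q : A'}
    (hφ : DifferentiableAt ℝ φ (k' q)) :
    fderiv ℝ (conj k' k φ) q
      = ((re k).symm : M →L[ℝ] A).comp ((fderiv ℝ φ (k' q)).comp (re k' : A' →L[ℝ] M')) := by
  have h1 : HasFDerivAt (fun q : A' => φ (k' q))
      ((fderiv ℝ φ (k' q)).comp (re k' : A' →L[ℝ] M')) q :=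
    HasFDerivAt.comp q (g := φ) (f := fun q : A' => k' q) hφ.hasFDerivAt
      ((re k' : A' →L[ℝ] M').hasFDerivAt)
  exact (((re k).symm : M →L[ℝ] A).hasFDerivAt.comp q h1).fderiv

/-- **Naturality**: `f'` is at `q` the pull-back of `f` by `φ` in coordinates iff the same holds for
the transported forms. -/
theorem push_nat (k' : A' ≃L[ℂ] M') (k : A ≃L[ℂ] M) {φ : M' → M} {p : M'}
    (hφ : DifferentiableAt ℝ φ p) {f : A → Alt n A} {f' : A' → Alt n A'} :
    f' (k'.symm p) = (f (conj k' k φ (k'.symm p))).compContinuousLinearMap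
        (fderiv ℝ (conj k' k φ) (k'.symm p)) ↔
      push k' f' p = (push k f (φ p)).compContinuousLinearMap (fderiv ℝ φ p) := by
  have hφ' : DifferentiableAt ℝ φ (k' (k'.symm p)) := by simpa using hφ
  rw [fderiv_conj k' k hφ']
  constructor
  · intro h
    ext v
    rw [push_apply, h]
    simp only [conj, push_apply, ContinuousAlternatingMap.compContinuousLinearMap_apply,
      ContinuousLinearEquiv.apply_symm_apply]
    congr 1
    funext i
    simp
  · intro h
    ext v
    have h' := DFunLike.congr_fun h fun i => k' (v i)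
    rw [push_apply] at h'
    simp only [ContinuousLinearEquiv.symm_apply_apply] at h'
    rw [h']
    simp only [conj, push_apply, ContinuousAlternatingMap.compContinuousLinearMap_apply,
      ContinuousLinearEquiv.apply_symm_apply]
    congr 1

end nat

end push

/-! ### real differentiability of the maps of the wall from complex analyticity -/

theorem diff_real {M M' : Type} [NormedAddCommGroup M] [NormedSpace ℂ M] [NormedSpace ℝ M]
    [IsScalarTower ℝ ℂ M] [NormedAddCommGroup M'] [NormedSpace ℂ M'] [NormedSpace ℝ M']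
    [IsScalarTower ℝ ℂ M'] {φ : M' → M} {p : M'} (h : AnalyticAt ℂ φ p) :
    DifferentiableAt ℝ φ p :=
  h.differentiableAt.restrictScalars ℝ

theorem analyticAt_conj {A A' M M' : Type} [NormedAddCommGroup A] [NormedSpace ℂ A]
    [NormedAddCommGroup M] [NormedSpace ℂ M] [NormedAddCommGroup A'] [NormedSpace ℂ A']
    [NormedAddCommGroup M'] [NormedSpace ℂ M'] (k' : A' ≃L[ℂ] M') (k : A ≃L[ℂ] M) {φ : M' → M}
    {q : A'} (h : AnalyticAt ℂ φ (k' q)) : AnalyticAt ℂ (conj k' k φ) q := by
  have h1 : AnalyticAt ℂ (fun q : A' => φ (k' q)) q :=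
    AnalyticAt.fun_comp h ((k' : A' →L[ℂ] M').analyticAt q)
  have h2 : AnalyticAt ℂ (fun x : M => k.symm x) (φ (k' q)) := (k.symm : M →L[ℂ] A).analyticAt _
  exact AnalyticAt.comp (g := fun x : M => k.symm x) (f := fun q : A' => φ (k' q)) h2 h1

end Vale.Agent.P273.H680

end
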