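import Vale.Agent.P273.H680.CoreBd
import Vale.Agent.P273.H233.LimCU

/-!
# P273, crew ASY0 (T3a): the explicit family `lgU U` on the cores

* `cform_lgU`: `lgU U` has the form `CForm`;
* `coreB`: the fields b1, b2, b4, b5, b6 of helper803's `AsyQ Q κ (lgU U)`;
* `coreQ`: with helper233's limits, `AsyQ Q (kap0 U) (lgU U)`.
-/

noncomputable section

namespace Vale.Agent.P273.H680

open Set Filter H681 H95 H732 H562 H803 H545 H722 H132 H722.KapData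
open scoped Topology ContDiff

variable (U : UData) {Q : MarkP}

/-- the near chart: the bounds at the point -/
theorem near_ok {R : H95.Region} {m : ∀ k, Fin (R.n k + 1)} {S : L → Bool} {N : ℝ} {p : Co R m}
    (hp : Adm R m S N p) (c : R.Cm) (hS : S c.1 = false) :
    ‖p.2.2.2.2 c‖ ≤ 11 ∧ ∀ l, 1 / 64 ≤ ‖p.2.2.2.2 c - ctr l‖ := by
  have h := hp.2.2.2.1 c (Set.mem_univ _)
  simp only [hS, Bool.false_eq_true, if_false] at h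
  exact ⟨by simpa using h.1, h.2⟩

/-- the far chart: the bounds at the point -/
theorem far_ok {R : H95.Region} {m : ∀ k, Fin (R.n k + 1)} {S : L → Bool} {N : ℝ} {p : Co R m}
    (hp : Adm R m S N p) (c : R.Cm) (hS : S c.1 = true) : ‖p.2.2.2.2 c‖ ≤ 11⁻¹ := by
  have h := hp.2.2.2.1 c (Set.mem_univ _)
  simp only [hS, if_true] at h
  simpa using h

/-- the core primitive at an admissible point -/
theorem prim_ok {R : H95.Region} {m : ∀ k, Fin (R.n k + 1)} {S : L → Bool} {N : ℝ} {p : Co R m}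
    (hp : Adm R m S N p) (hε : ‖ep (bP R m p)‖ < U.ρ) (c : R.Cm) :
    DifferentiableAt ℝ (U.K (S c.1) (p.2.2.2.2 c)) (ep (bP R m p), p.2.2.2.2 c) ∧
      ‖U.K (S c.1) (p.2.2.2.2 c) (ep (bP R m p), p.2.2.2.2 c)‖ ≤ U.A ∧
      ‖fderiv ℝ (U.K (S c.1) (p.2.2.2.2 c)) (ep (bP R m p), p.2.2.2.2 c)‖ ≤ U.A := by
  rcases hS : S c.1 with _ | _
  · obtain ⟨h1, h2⟩ := near_ok hp c hS
    exact ⟨U.K_diff _ _ hε h1 h2, U.K_le _ _ hε h1 h2, U.K'_le _ _ hε h1 h2⟩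
  · have h1 := far_ok hp c hS
    exact ⟨U.KI_diff _ _ hε h1, U.KI_le _ _ hε h1, U.KI'_le _ _ hε h1⟩

/-- **the explicit family has the form `CForm` on the cores** -/
theorem cform_lgU (hQ : ∀ R S j, Q R S j → ∃ b, R.pl j = Sum.inr b) : CForm U.D Q (lgU U) := by
  obtain ⟨N₀, hN, H⟩ := exists_big U.D U.ρ_pos
  refine ⟨max U.A 0, N₀, le_max_right _ _, hN, ?_⟩
  intro R m S _ p hp j hj ξ _
  obtain ⟨b, hb⟩ := hQ R S j hj
  obtain ⟨μ, hμ, hε, -⟩ := H R m p hp.2.1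
  obtain ⟨h1, h2, h3⟩ := prim_ok U hp hε ⟨j, by simp [hb]⟩
  refine ⟨⟨j, by simp [hb]⟩, if b then -1 else 1, _, _, ?_, h2.trans (le_max_left _ _),
    h3.trans (le_max_left _ _), ?_⟩
  · cases b <;> simp
  · rw [lgU_core U R m S hb]
    congr 1
    exact (hasFDerivAt_UK hμ (hasFDerivAt_bP R m p) h1.hasFDerivAt
      (sC R m ⟨j, by simp [hb]⟩).hasFDerivAt (xeF ξ) (btF ξ)).fderiv

/-- **the five bounds of `AsyQ` for the explicit family on the cores** -/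
theorem coreB (hQ : ∀ R S j, Q R S j → ∃ b, R.pl j = Sum.inr b) :
    (∃ K N₀ : ℝ, 1 ≤ N₀ ∧ ∀ R m S, FarOk R S → ∀ p, Adm R m S N₀ p → ∀ j, Q R S j →
      ∀ ξ, IsCl ξ → ∀ d : (W R m).Dir R.Cm, (∀ k, d ≠ .y k) →
        |lgU U R m S j ξ p ((W R m).vec d)| ≤ K * ‖ξ‖) ∧
    (∃ K N₀ : ℝ, 1 ≤ N₀ ∧ ∀ R m S, FarOk R S → ∀ p, Adm R m S N₀ p → ∀ j, Q R S j →
      ∀ ξ, IsCl ξ → ∀ f : (W R m).Fr, ∀ d : (W R m).Dir R.Cm, (d = .u f ∨ d = .ph f) →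
        |lgU U R m S j ξ p ((W R m).vec d)| ≤ K * (|bt ξ ((W R m).nk f.1)| +
          ‖ξ‖ * (1 / p.2.2.1 ((W R m).nk f.1) + Real.exp (-p.1 f)))) ∧
    (∃ K N₀ : ℝ, 1 ≤ N₀ ∧ ∀ R m S, FarOk R S → ∀ p, Adm R m S N₀ p → ∀ j, Q R S j →
      ∀ ξ, IsCl ξ → ∀ k, |lgU U R m S j ξ p ((W R m).vec (.al k))| ≤
        K * (|bt ξ k| + ‖ξ‖ / p.2.2.1 k)) ∧
    (∃ K N₀ : ℝ, 1 ≤ N₀ ∧ ∀ R m S, FarOk R S → ∀ p, Adm R m S N₀ p → ∀ j, Q R S j →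
      ∀ ξ, IsCl ξ → ∀ k, |lgU U R m S j ξ p ((W R m).eul p k)| ≤ K * (‖ξ‖ / p.2.2.1 k)) ∧
    (∃ K N₀ : ℝ, 1 ≤ N₀ ∧ ∀ R m S, FarOk R S → ∀ p, Adm R m S N₀ p → ∀ j, Q R S j →
      ∀ ξ, IsCl ξ → (∀ k, bt ξ k = 0) →
      (∀ d : (W R m).Dir R.Cm, (∀ k, d ≠ .y k) →
        |lgU U R m S j ξ p ((W R m).vec d)| ≤ K * H562.ww ξ p.2.2.1) ∧
      ∀ k, |lgU U R m S j ξ p ((W R m).eul p k)| ≤
        K * (H562.ww ξ p.2.2.1 * (mn p.2.2.1 / p.2.2.1 k))) :=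
  have h := cform_lgU U hQ
  ⟨h.b1, h.b2, h.b4, h.b5, h.b6⟩

/-- **the explicit family on the cores** -/
theorem coreQ (hQ : ∀ R S j, Q R S j → ∃ b, R.pl j = Sum.inr b) :
    AsyQ Q (kap0 U) (lgU U) := by
  obtain ⟨h1, h2, h4, h5, h6⟩ := coreB U hQ
  obtain ⟨l1, l2, l3⟩ := H233.LimC.coreLim U Q hQ
  exact ⟨h1, h2, h4, h5, h6, l1, l2, l3⟩

theorem near0_lgU : AsyQ Near0 (kap0 U) (lgU U) := coreQ U fun _ _ _ h => h.2

theorem far0_lgU : AsyQ Far0 (kap0 U) (lgU U) := coreQ U fun _ _ _ h => h.2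

end Vale.Agent.P273.H680

end
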